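import Vale.Agent.P130.Spectral

/-! Transfer from Fourier identities to closed sets, and a Steinhaus lemma, on the circle. -/

open MeasureTheory AddCircle Filter Topology
open scoped ComplexConjugate NNReal Pointwise BoundedContinuousFunction ENNReal

namespace P130Indep

variable {α β : Type*} [MeasurableSpace α] [MeasurableSpace β]

lemma integrable_weight {ν : Measure α} {π : α → Circ} (hπ : Measurable π) {w : α → ℂ}
    (hw : Integrable w ν) (φ : C(Circ, ℂ)) : Integrable (fun a => φ (π a) * w a) ν :=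
  hw.bdd_mul (c := ‖φ‖) (φ.continuous.measurable.comp hπ).aestronglyMeasurable
    (Eventually.of_forall fun a => φ.norm_coe_le_norm _)

/-- The functional `φ ↦ ∫ φ (π a) w a`. -/
noncomputable def weightFun (ν : Measure α) {π : α → Circ} (hπ : Measurable π) {w : α → ℂ}
    (hw : Integrable w ν) : C(Circ, ℂ) →L[ℂ] ℂ :=
  LinearMap.mkContinuous
    { toFun := fun φ => ∫ a, φ (π a) * w a ∂ν
      map_add' := fun φ ψ => by
        rw [← integral_add (integrable_weight hπ hw φ) (integrable_weight hπ hw ψ)]
        simp [add_mul]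
      map_smul' := fun c φ => by
        simp [mul_assoc, integral_const_mul] }
    (∫ a, ‖w a‖ ∂ν)
    (fun φ => by
      refine (norm_integral_le_integral_norm _).trans ?_
      rw [mul_comm, ← integral_const_mul]
      refine integral_mono_of_nonneg (Eventually.of_forall fun a => norm_nonneg _)
        (hw.norm.const_mul _) (Eventually.of_forall fun a => ?_)
      simp only [norm_mul]
      exact mul_le_mul_of_nonneg_right (φ.norm_coe_le_norm _) (norm_nonneg _))

/-- Continuous approximation of the indicator of a closed set. -/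
noncomputable def approx {K : Set Circ} (hK : IsClosed K) (k : ℕ) : C(Circ, ℂ) :=
  ⟨fun x => (((hK.apprSeq k x : ℝ≥0) : ℝ) : ℂ), by fun_prop⟩

lemma tendsto_approx {K : Set Circ} (hK : IsClosed K) {ρ : Measure α} {p : α → Circ}
    (hp : Measurable p) {u : α → ℂ} (hu : Integrable u ρ) :
    Tendsto (fun k => ∫ a, approx hK k (p a) * u a ∂ρ) atTop (𝓝 (∫ a in p ⁻¹' K, u a ∂ρ)) := by
  rw [← integral_indicator (hp hK.measurableSet)]
  refine tendsto_integral_of_dominated_convergence (fun a => ‖u a‖)
    (fun k => (integrable_weight hp hu (approx hK k)).1) hu.norm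
    (fun k => Eventually.of_forall fun a => ?_) (Eventually.of_forall fun a => ?_)
  · rw [norm_mul]
    refine mul_le_of_le_one_left (norm_nonneg _) ?_
    change ‖(((hK.apprSeq k (p a) : ℝ≥0) : ℝ) : ℂ)‖ ≤ 1
    rw [Complex.norm_real, Real.norm_eq_abs, abs_of_nonneg (NNReal.coe_nonneg _)]
    exact_mod_cast HasOuterApproxClosed.apprSeq_apply_le_one hK k (p a)
  · have ht : Tendsto (fun k => approx hK k (p a)) atTop
        (𝓝 (((K.indicator (fun _ => (1 : ℝ≥0)) (p a) : ℝ≥0) : ℝ) : ℂ)) :=
      ((Complex.continuous_ofReal.comp NNReal.continuous_coe).tendsto _).comp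
        (tendsto_pi_nhds.1 (HasOuterApproxClosed.tendsto_apprSeq hK) (p a))
    have := ht.mul_const (u a)
    by_cases ha : p a ∈ K
    · simpa [ha, Set.indicator, Set.mem_preimage] using this
    · simpa [ha, Set.indicator, Set.mem_preimage] using this

lemma transfer {ν : Measure α} {η : Measure β} {π : α → Circ} {π' : β → Circ}
    (hπ : Measurable π) (hπ' : Measurable π') {w : α → ℂ} {w' : β → ℂ}
    (hw : Integrable w ν) (hw' : Integrable w' η)
    (h : ∀ n : ℤ, ∫ a, fourier n (π a) * w a ∂ν = ∫ b, fourier n (π' b) * w' b ∂η)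
    {K : Set Circ} (hK : IsClosed K) :
    ∫ a in π ⁻¹' K, w a ∂ν = ∫ b in π' ⁻¹' K, w' b ∂η := by
  have hL : weightFun ν hπ hw = weightFun η hπ' hw' := by
    refine ContinuousLinearMap.ext_on
      (Submodule.dense_iff_topologicalClosure_eq_top.2 span_fourier_closure_eq_top) ?_
    rintro _ ⟨n, rfl⟩
    exact h n
  have e : (fun k => ∫ a, approx hK k (π a) * w a ∂ν) =
      fun k => ∫ b, approx hK k (π' b) * w' b ∂η :=
    funext fun k => congrArg (fun L : C(Circ, ℂ) →L[ℂ] ℂ => L (approx hK k)) hL
  have := tendsto_approx hK hπ hw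
  rw [e] at this
  exact tendsto_nhds_unique this (tendsto_approx hK hπ' hw')

lemma ae_eq_zero_of_fourier {H : Circ → ℂ} (hH : Integrable H cm)
    (h : ∀ n : ℤ, ∫ t, fourier n t * H t ∂cm = 0) : H =ᵐ[cm] 0 := by
  refine ae_eq_zero_of_forall_setIntegral_isClosed_eq_zero hH fun K hK => ?_
  have := transfer (η := cm) (w' := fun _ => 0) measurable_id measurable_id hH
    (integrable_zero _ _ _) (fun n => by simpa using h n) hK
  simpa using this

/-- Steinhaus: `K ∩ (K - y)` has positive measure for all `y` near `0`. -/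
lemma steinhaus {K : Set Circ} (hK : IsCompact K) (h0 : 0 < cm K) :
    ∃ W : Set Circ, IsOpen W ∧ (0 : Circ) ∈ W ∧
      ∀ y ∈ W, 0 < cm (K ∩ (fun x => x + y) ⁻¹' K) := by
  have hlt : cm K < 2 * cm K := by
    rw [two_mul]; exact ENNReal.lt_add_right (measure_ne_top _ _) h0.ne'
  obtain ⟨U, hKU, hU, hUlt⟩ := Set.exists_isOpen_lt_of_lt K _ hlt
  obtain ⟨V, hV, hKV⟩ := compact_open_separated_add_right hK hU hKU
  obtain ⟨W, hW1, hW2, hW3⟩ := mem_nhds_iff.1 hV
  refine ⟨W ∩ (-W), hW2.inter hW2.neg, ⟨hW3, by simpa using hW3⟩, fun y hy => ?_⟩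
  by_contra hne
  have hzero : cm (K ∩ (fun x => x + y) ⁻¹' K) = 0 := le_antisymm (not_lt.1 hne) zero_le
  have hsub : K ∪ (fun x => x + y) ⁻¹' K ⊆ U := by
    rintro x (hx | hx)
    · exact hKU hx
    · refine hKV ?_
      have : x = (x + y) + (-y) := by abel
      rw [this]
      exact Set.add_mem_add hx (hW1 hy.2)
  have hm : MeasurableSet ((fun x : Circ => x + y) ⁻¹' K) :=
    (measurable_add_const y) hK.measurableSet
  have : 2 * cm K ≤ cm U := by
    calc 2 * cm K = cm K + cm ((fun x => x + y) ⁻¹' K) := by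
          rw [measure_preimage_add_right, two_mul]
      _ = cm (K ∪ (fun x => x + y) ⁻¹' K) := by
          rw [← measure_union_add_inter K hm, hzero, add_zero]
      _ ≤ cm U := measure_mono hsub
  exact absurd hUlt (not_lt.2 this)

end P130Indep
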