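import Vale.Agent.P130.Main

/-! The core argument: two independent invariant sub-σ-algebras cannot both be non-trivial. -/

open MeasureTheory AddCircle Filter Topology ProbabilityTheory
open scoped ComplexConjugate NNReal ENNReal

namespace P130Indep

variable {X : Type*} {C₁ C₂ : MeasurableSpace X} [m0 : MeasurableSpace X] {μ : Measure X}
  {T : X ≃ᵐ X} [IsProbabilityMeasure μ] {F : (X → ℂ) → (Circ → ℂ)}

omit [IsProbabilityMeasure μ] in
lemma integral_indep_mul (h : Indep C₁ C₂ μ) (h1 : C₁ ≤ m0) (h2 : C₂ ≤ m0) {a b : X → ℂ}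
    (ha : Measurable[C₁] a) (hb : Measurable[C₂] b) :
    ∫ x, a x * b x ∂μ = (∫ x, a x ∂μ) * ∫ x, b x ∂μ := by
  have hi : IndepFun a b μ := (IndepFun_iff_Indep a b μ).2
    (indep_of_indep_of_le_right (indep_of_indep_of_le_left h ha.comap_le) hb.comap_le)
  exact hi.integral_fun_mul_eq_mul_integral (ha.mono h1 le_rfl).aestronglyMeasurable
    (hb.mono h2 le_rfl).aestronglyMeasurable

lemma spec_inv (hF : IsSpec μ T F) {g g' : X → ℂ} (hg : MemLp g 2 μ) (hg' : MemLp g' 2 μ)
    (h0 : ∫ x, g x ∂μ = 0) (h0' : ∫ x, g' x ∂μ = 0) (n : ℤ) :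
    ∫ t, fourier n t * (conj (F g t) * F g' t) ∂cm
      = ∫ x, conj (g (tp T (-n) x)) * g' x ∂μ := by
  rw [hF.2 g g' hg hg' h0 h0' (-n)]
  simp only [fourier_neg, Complex.conj_conj]

lemma independent_trivial (hT : MeasurePreserving T μ μ) (hF : IsSpec μ T F)
    (h1 : C₁ ≤ m0) (h2 : C₂ ≤ m0) (hC₁ : ∀ n, @Measurable X X C₁ C₁ (tp T n))
    (hC₂ : ∀ n, @Measurable X X C₂ C₂ (tp T n)) (hind : Indep C₁ C₂ μ)
    {A : Set X} (hA : MeasurableSet[C₁] A) (hA0 : 0 < μ A) (hA1 : μ A < 1)
    {A' : Set X} (hA' : MeasurableSet[C₂] A') (hA0' : 0 < μ A') (hA1' : μ A' < 1) : False := by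
  have hAm := h1 _ hA
  set zA : X → ℂ := fun x => (rc μ A x : ℂ) with hzA
  have hzA2 : MemLp zA 2 μ := rc_memLp hAm
  have hzA0 : ∫ x, zA x ∂μ = 0 := rc_integral' hAm
  have hzAm : Measurable[C₁] zA := Complex.measurable_ofReal.comp (rc_measurable hA)
  set a := (hF.1 zA hzA2).1.mk (F zA)
  have haF : F zA =ᵐ[cm] a := (hF.1 zA hzA2).1.ae_eq_mk
  have ham : Measurable a := (hF.1 zA hzA2).1.stronglyMeasurable_mk.measurable
  -- the support of `a` has positive measure
  have hS : 0 < cm {t | a t ≠ 0} := by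
    by_contra hne
    have hz : ∀ᵐ t ∂cm, F zA t = 0 := by
      have : ∀ᵐ t ∂cm, a t = 0 := by
        rw [ae_iff]; exact le_antisymm (not_lt.1 hne) zero_le
      filter_upwards [haF, this] with t u v
      rw [u, v]
    have hs := autocorr hF hAm 0
    simp only [tp, zpow_zero, Equiv.Perm.coe_one, id, fourier_zero, Complex.one_re, one_mul] at hs
    have : ∫ t, ‖F zA t‖ ^ 2 ∂cm = 0 := by
      apply integral_eq_zero_of_ae
      filter_upwards [hz] with t ht
      simp [ht]
    have hq : μ.real A * (1 - μ.real A) = 0 := by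
      rw [← rc_sq hAm, ← this, ← hs]; simp [pow_two]
    have p0 : 0 < μ.real A := ENNReal.toReal_pos hA0.ne' (measure_ne_top _ _)
    have p1 : μ.real A < 1 := by
      have := (ENNReal.toReal_lt_toReal (measure_ne_top μ A) ENNReal.one_ne_top).2 hA1
      simpa [measureReal_def] using this
    nlinarith
  obtain ⟨K, hKS, hKc, hK0⟩ :=
    (ham (measurableSet_singleton (0 : ℂ)).compl).exists_lt_isCompact hS
  obtain ⟨W, hW, hW0, hWpos⟩ := steinhaus hKc hK0
  obtain ⟨E, hE, hEW⟩ := exists_near_zero hT hF h2 hC₂ hA' hA0' hA1' hW hW0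
  apply hEW
  have hEm := h2 _ hE
  set zE : X → ℂ := fun x => (rc μ E x : ℂ) with hzE
  have hzE2 : MemLp zE 2 μ := rc_memLp hEm
  have hzE0 : ∫ x, zE x ∂μ = 0 := rc_integral' hEm
  have hzEm : Measurable[C₂] zE := Complex.measurable_ofReal.comp (rc_measurable hE)
  set b := (hF.1 zE hzE2).1.mk (F zE)
  have hbF : F zE =ᵐ[cm] b := (hF.1 zE hzE2).1.ae_eq_mk
  have hbm : Measurable b := (hF.1 zE hzE2).1.stronglyMeasurable_mk.measurable
  -- the product function
  set zP : X → ℂ := fun x => zA x * zE x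
  have hzP2 : MemLp zP 2 μ :=
    MemLp.of_bound ((hzAm.mono h1 le_rfl).mul (hzEm.mono h2 le_rfl)).aestronglyMeasurable 4
      (Eventually.of_forall fun x => by
        simp only [zP, hzA, hzE, norm_mul, Complex.norm_real, Real.norm_eq_abs]
        nlinarith [rc_bound (μ := μ) A x, rc_bound (μ := μ) E x, abs_nonneg (rc μ A x),
          abs_nonneg (rc μ E x)])
  have hzP0 : ∫ x, zP x ∂μ = 0 := by
    rw [integral_indep_mul hind h1 h2 hzAm hzEm, hzA0, zero_mul]
  have hzEt : ∀ n, ∫ x, conj (zE (tp T n x)) ∂μ = 0 := by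
    intro n
    rw [integral_conj, integral_tp hT n zE hzE2.1, hzE0, map_zero]
  have hGA : (fun t => conj (F zP t) * F zA t) =ᵐ[cm] 0 := by
    refine ae_eq_zero_of_fourier (integrable_conj_mul (hF.1 _ hzP2) (hF.1 _ hzA2)) fun n => ?_
    rw [spec_inv hF hzP2 hzA2 hzP0 hzA0 n]
    have e : (fun x => conj (zP (tp T (-n) x)) * zA x) = fun x =>
        (conj (zA (tp T (-n) x)) * zA x) * conj (zE (tp T (-n) x)) := by
      funext x; simp only [zP, map_mul]; ring
    have ma : Measurable[C₁] fun x => conj (zA (tp T (-n) x)) * zA x :=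
      (Complex.continuous_conj.measurable.comp (hzAm.comp (hC₁ (-n)))).mul hzAm
    have mb : Measurable[C₂] fun x => conj (zE (tp T (-n) x)) :=
      Complex.continuous_conj.measurable.comp (hzEm.comp (hC₂ (-n)))
    rw [e, integral_indep_mul hind h1 h2 ma mb, hzEt (-n), mul_zero]
  -- transfer the product identity to the closed set `K`
  let w : Circ × Circ → ℂ := fun q => (conj (a q.1) * a q.1) * (conj (b q.2) * b q.2)
  have ha2 : MemLp a 2 cm := (memLp_congr_ae haF).1 (hF.1 _ hzA2)
  have hb2 : MemLp b 2 cm := (memLp_congr_ae hbF).1 (hF.1 _ hzE2)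
  have hw : Integrable w (cm.prod cm) :=
    (integrable_conj_mul ha2 ha2).mul_prod (integrable_conj_mul hb2 hb2)
  have hadd : Measurable fun q : Circ × Circ => q.1 + q.2 := measurable_fst.add measurable_snd
  have htr := transfer hadd measurable_id hw
    (integrable_conj_mul (hF.1 _ hzP2) (hF.1 _ hzP2)) (fun n => ?_) hKc.isClosed
  swap
  · have e : (fun q : Circ × Circ => fourier n (q.1 + q.2) * w q) = fun q =>
        (fourier n q.1 * (conj (a q.1) * a q.1)) * (fourier n q.2 * (conj (b q.2) * b q.2)) := by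
      funext q
      simp only [w, fourier_apply, smul_add, toCircle_add, Circle.coe_mul]
      ring
    rw [e, integral_prod_mul (fun t => fourier n t * (conj (a t) * a t))
      (fun t => fourier n t * (conj (b t) * b t))]
    have ea : ∫ t, fourier n t * (conj (a t) * a t) ∂cm
        = ∫ x, conj (zA (tp T (-n) x)) * zA x ∂μ := by
      rw [← spec_inv hF hzA2 hzA2 hzA0 hzA0 n]
      refine integral_congr_ae ?_
      filter_upwards [haF] with t ht
      rw [ht]
    have eb : ∫ t, fourier n t * (conj (b t) * b t) ∂cm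
        = ∫ x, conj (zE (tp T (-n) x)) * zE x ∂μ := by
      rw [← spec_inv hF hzE2 hzE2 hzE0 hzE0 n]
      refine integral_congr_ae ?_
      filter_upwards [hbF] with t ht
      rw [ht]
    have ep : ∫ t, fourier n (id t) * (conj (F zP t) * F zP t) ∂cm
        = ∫ x, conj (zP (tp T (-n) x)) * zP x ∂μ :=
      spec_inv hF hzP2 hzP2 hzP0 hzP0 n
    have e' : (fun x => conj (zP (tp T (-n) x)) * zP x) = fun x =>
        (conj (zA (tp T (-n) x)) * zA x) * (conj (zE (tp T (-n) x)) * zE x) := by
      funext x; simp only [zP, map_mul]; ring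
    have ma : Measurable[C₁] fun x => conj (zA (tp T (-n) x)) * zA x :=
      (Complex.continuous_conj.measurable.comp (hzAm.comp (hC₁ (-n)))).mul hzAm
    have mb : Measurable[C₂] fun x => conj (zE (tp T (-n) x)) * zE x :=
      (Complex.continuous_conj.measurable.comp (hzEm.comp (hC₂ (-n)))).mul hzEm
    rw [ea, eb, ep, e', integral_indep_mul hind h1 h2 ma mb]
  have hzero : ∫ t in id ⁻¹' K, conj (F zP t) * F zP t ∂cm = 0 := by
    refine setIntegral_eq_zero_of_ae_eq_zero ?_
    filter_upwards [hGA, haF] with t ht hta htK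
    have : a t ≠ 0 := hKS htK
    rw [← hta] at this
    rcases mul_eq_zero.1 ht with h | h
    · simp [map_eq_zero (starRingEnd ℂ) |>.1 h]
    · exact absurd h this
  rw [hzero] at htr
  -- read it as a statement about a non-negative integrand
  have hwr : w = fun q => (((‖a q.1‖ * ‖b q.2‖) ^ 2 : ℝ) : ℂ) := by
    funext q
    simp only [w, Complex.conj_mul']
    push_cast; ring
  have hPm : MeasurableSet ((fun q : Circ × Circ => q.1 + q.2) ⁻¹' K) :=
    hadd hKc.isClosed.measurableSet
  rw [hwr, integral_complex_ofReal, Complex.ofReal_eq_zero] at htr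
  have hint : Integrable (fun q : Circ × Circ => (‖a q.1‖ * ‖b q.2‖) ^ 2) (cm.prod cm) := by
    simp only [mul_pow]
    exact (integrable_norm_sq ha2).mul_prod (integrable_norm_sq hb2)
  have hae := (setIntegral_eq_zero_iff_of_nonneg_ae (Eventually.of_forall fun q => sq_nonneg _)
    hint.integrableOn).1 htr
  rw [Filter.EventuallyEq, ae_restrict_iff' hPm] at hae
  set Q : Set (Circ × Circ) := {q | q.1 ∈ K ∧ q.1 + q.2 ∈ K ∧ b q.2 ≠ 0}
  have hQm : MeasurableSet Q :=
    (measurable_fst hKc.isClosed.measurableSet).inter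
      (hPm.inter ((hbm.comp measurable_snd) (measurableSet_singleton (0 : ℂ)).compl))
  have hQ0 : cm.prod cm Q = 0 := by
    rw [measure_eq_zero_iff_ae_notMem]
    filter_upwards [hae] with q hq hqQ
    have h := hq hqQ.2.1
    have ha' : a q.1 ≠ 0 := hKS hqQ.1
    simp at h
    rcases h with h | h
    · exact ha' h
    · exact hqQ.2.2 h
  rw [Measure.prod_apply_symm hQm,
    lintegral_eq_zero_iff (measurable_measure_prodMk_right hQm)] at hQ0
  filter_upwards [hQ0, hbF] with y hy hyb hyW
  rw [hyb]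
  by_contra hne
  have hsec : (fun x => (x, y)) ⁻¹' Q = K ∩ (fun x => x + y) ⁻¹' K := by
    ext x; simp [Q, hne]
  have hpos := hWpos y hyW
  rw [← hsec] at hpos
  exact hpos.ne' hy

end P130Indep
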