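import Vale.Agent.P130.Circle

/-! Simple Lebesgue spectrum excludes two independent invariant sub-σ-algebras. -/

open MeasureTheory AddCircle Filter Topology ProbabilityTheory
open scoped ComplexConjugate NNReal ENNReal

namespace P130Indep

lemma cm_singleton (x : Circ) : cm {x} = 0 := by
  have h : (volume : Measure Circ) = cm := by
    rw [AddCircle.volume_eq_smul_haarAddCircle]; simp
  rw [← h]
  have := AddCircle.volume_closedBall (T := (1 : ℝ)) (x := x) 0
  simpa using this

lemma fourier_re_le (n : ℤ) (t : Circ) : (fourier n t).re ≤ 1 := by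
  refine (Complex.re_le_norm _).trans ?_
  rw [fourier_apply, Circle.norm_coe]

lemma zsmul_eq_zero_of_re {n : ℤ} {t : Circ} (h : (fourier n t).re = 1) : n • t = 0 := by
  apply injective_toCircle (T := (1 : ℝ)) one_ne_zero
  rw [toCircle_zero]
  apply Subtype.ext
  have hn : ‖fourier n t‖ = 1 := by rw [fourier_apply, Circle.norm_coe]
  have h2 : (fourier n t).im = 0 := by
    have := Complex.sq_norm (fourier n t)
    rw [hn, Complex.normSq_apply, h] at this
    nlinarith [sq_nonneg (fourier n t).im]
  rw [← fourier_apply]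
  exact Complex.ext (by simpa using h) (by simpa using h2)

lemma re_eq_one_null {n : ℤ} (hn : n ≠ 0) : cm {t : Circ | (fourier n t).re = 1} = 0 := by
  have hfin : Set.Finite {t : Circ | n • t = 0} := by
    refine (finite_torsion (1 : ℝ) (Int.natAbs_pos.2 hn)).subset fun t ht => ?_
    simp only [Set.mem_ofPred_eq] at ht ⊢
    rcases Int.natAbs_eq n with h | h <;> rw [h] at ht
    · simpa using ht
    · simpa using ht
  refine measure_mono_null (t := {t : Circ | n • t = 0}) (fun t ht => zsmul_eq_zero_of_re ht) ?_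
  rw [← Set.biUnion_of_singleton {t : Circ | n • t = 0}]
  exact (measure_biUnion_null_iff hfin.countable).2 fun t _ => cm_singleton t

variable {X : Type*} {C : MeasurableSpace X} [m0 : MeasurableSpace X] {μ : Measure X} {T : X ≃ᵐ X}

/-- Centred indicator. -/
noncomputable def rc (μ : Measure X) (D : Set X) (x : X) : ℝ :=
  D.indicator (fun _ => (1 : ℝ)) x - μ.real D

lemma rc_measurable {D : Set X} (hD : MeasurableSet[C] D) :
    Measurable[C] (rc μ D) :=
  (measurable_const.indicator hD).sub measurable_const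

lemma rc_bound [IsProbabilityMeasure μ] (D : Set X) (x : X) : |rc μ D x| ≤ 2 := by
  have h1 := measureReal_le_one (μ := μ) (s := D)
  have h2 := measureReal_nonneg (μ := μ) (s := D)
  rw [rc, abs_le]
  by_cases h : x ∈ D <;> simp [h] <;> constructor <;> linarith

lemma rc_memLp [IsProbabilityMeasure μ] {D : Set X} (hD : MeasurableSet D) :
    MemLp (fun x => (rc μ D x : ℂ)) 2 μ :=
  MemLp.of_bound (Complex.measurable_ofReal.comp (rc_measurable hD)).aestronglyMeasurable 2
    (Eventually.of_forall fun x => by simpa using rc_bound D x)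

lemma rc_integral [IsProbabilityMeasure μ] {D : Set X} (hD : MeasurableSet D) :
    ∫ x, rc μ D x ∂μ = 0 := by
  unfold rc
  rw [integral_sub ((integrable_const _).indicator hD) (integrable_const _)]
  simp [integral_indicator hD]

lemma rc_integral' [IsProbabilityMeasure μ] {D : Set X} (hD : MeasurableSet D) :
    ∫ x, (rc μ D x : ℂ) ∂μ = 0 := by
  rw [integral_complex_ofReal, rc_integral hD]; simp

lemma rc_sq [IsProbabilityMeasure μ] {D : Set X} (hD : MeasurableSet D) :
    ∫ x, rc μ D x ^ 2 ∂μ = μ.real D * (1 - μ.real D) := by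
  have e : (fun x => rc μ D x ^ 2) = fun x =>
      (1 - 2 * μ.real D) * D.indicator (fun _ => (1 : ℝ)) x + μ.real D ^ 2 := by
    funext x; unfold rc
    by_cases h : x ∈ D <;> simp [h]; ring
  rw [e, integral_add (((integrable_const _).indicator hD).const_mul _) (integrable_const _),
    integral_const_mul, integral_indicator hD]
  simp
  ring

lemma integrable_conj_mul {α : Type*} [MeasurableSpace α] {ν : Measure α} {a b : α → ℂ}
    (ha : MemLp a 2 ν) (hb : MemLp b 2 ν) : Integrable (fun x => conj (a x) * b x) ν :=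
  ha.star.integrable_mul hb

lemma integrable_norm_sq {α : Type*} [MeasurableSpace α] {ν : Measure α} {a : α → ℂ}
    (ha : MemLp a 2 ν) : Integrable (fun x => ‖a x‖ ^ 2) ν :=
  ha.norm.integrable_sq

variable [IsProbabilityMeasure μ] {F : (X → ℂ) → (Circ → ℂ)}

/-- The defining property of a spectral map. -/
def IsSpec (μ : Measure X) (T : X ≃ᵐ X) (F : (X → ℂ) → (Circ → ℂ)) : Prop :=
  (∀ g : X → ℂ, MemLp g 2 μ → MemLp (F g) 2 cm) ∧
    ∀ g g' : X → ℂ, MemLp g 2 μ → MemLp g' 2 μ → ∫ x, g x ∂μ = 0 → ∫ x, g' x ∂μ = 0 →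
      ∀ n : ℤ, ∫ x, conj (g (tp T n x)) * g' x ∂μ
        = ∫ t, conj (fourier n t) * (conj (F g t) * F g' t) ∂cm

lemma autocorr (hF : IsSpec μ T F) {D : Set X} (hD : MeasurableSet D) (n : ℤ) :
    ∫ x, rc μ D (tp T n x) * rc μ D x ∂μ
      = ∫ t, (fourier n t).re * ‖F (fun x => (rc μ D x : ℂ)) t‖ ^ 2 ∂cm := by
  have h := hF.2 _ _ (rc_memLp (μ := μ) hD) (rc_memLp hD) (rc_integral' hD) (rc_integral' hD) n
  have l : ∫ x, conj ((rc μ D (tp T n x) : ℂ)) * (rc μ D x : ℂ) ∂μ
      = ((∫ x, rc μ D (tp T n x) * rc μ D x ∂μ : ℝ) : ℂ) := by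
    rw [← integral_complex_ofReal]
    refine integral_congr_ae (Eventually.of_forall fun x => ?_)
    simp
  rw [l] at h
  have h2 := congrArg Complex.re h
  rw [Complex.ofReal_re] at h2
  set a := F (fun x => (rc μ D x : ℂ))
  have hint : Integrable (fun t => conj (fourier n t) * (conj (a t) * a t)) cm :=
    (integrable_conj_mul (hF.1 _ (rc_memLp hD)) (hF.1 _ (rc_memLp hD))).bdd_mul (c := 1)
      (Complex.continuous_conj.comp (fourier n).continuous).aestronglyMeasurable
      (Eventually.of_forall fun t => by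
        rw [Complex.norm_conj, fourier_apply, Circle.norm_coe])
  rw [h2]
  change Complex.reCLM (∫ t, _ ∂cm) = _
  rw [← Complex.reCLM.integral_comp_comm hint]
  refine integral_congr_ae (Eventually.of_forall fun t => ?_)
  simp only [Complex.reCLM_apply]
  rw [Complex.conj_mul', ← Complex.ofReal_pow, Complex.mul_re,
    Complex.ofReal_re, Complex.ofReal_im, Complex.conj_re]
  ring

lemma energy (hT : MeasurePreserving T μ μ) (hF : IsSpec μ T F) {D : Set X}
    (hD : MeasurableSet D) (n : ℤ) :
    ∫ x, (rc μ D (tp T n x) - rc μ D x) ^ 2 ∂μ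
      = 2 * ∫ t, (1 - (fourier n t).re) * ‖F (fun x => (rc μ D x : ℂ)) t‖ ^ 2 ∂cm := by
  set a := F (fun x => (rc μ D x : ℂ))
  have hr := rc_measurable (μ := μ) hD
  have hn := (tp_mp hT n).measurable
  have i2 : ∀ φ : X → ℝ, Measurable φ → (∀ x, |φ x| ≤ 4) → Integrable φ μ := fun φ h1 h2 =>
    Integrable.of_bound h1.aestronglyMeasurable 4 (Eventually.of_forall fun x => by simpa using h2 x)
  have b := fun x => rc_bound (μ := μ) D x
  have iA : Integrable (fun x => rc μ D (tp T n x) ^ 2) μ :=
    i2 _ ((hr.comp hn).pow_const 2) fun x => by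
      rw [abs_pow]; nlinarith [b (tp T n x), abs_nonneg (rc μ D (tp T n x))]
  have iB : Integrable (fun x => rc μ D x ^ 2) μ :=
    i2 _ (hr.pow_const 2) fun x => by
      rw [abs_pow]; nlinarith [b x, abs_nonneg (rc μ D x)]
  have iC : Integrable (fun x => rc μ D (tp T n x) * rc μ D x) μ :=
    i2 _ ((hr.comp hn).mul hr) fun x => by
      rw [abs_mul]
      nlinarith [b x, b (tp T n x), abs_nonneg (rc μ D x), abs_nonneg (rc μ D (tp T n x))]
  have e1 : ∫ x, rc μ D (tp T n x) ^ 2 ∂μ = ∫ x, rc μ D x ^ 2 ∂μ := by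
    have h := integral_map (μ := μ) hn.aemeasurable (f := fun x => rc μ D x ^ 2)
      (hr.pow_const 2).aestronglyMeasurable
    rw [(tp_mp hT n).map_eq] at h
    exact h.symm
  have e2 : ∫ x, rc μ D x ^ 2 ∂μ = ∫ t, ‖a t‖ ^ 2 ∂cm := by
    have h := autocorr hF hD 0
    simp only [tp, zpow_zero, Equiv.Perm.coe_one, id, fourier_zero, Complex.one_re, one_mul] at h
    simpa [pow_two] using h
  have ha := integrable_norm_sq (hF.1 _ (rc_memLp (μ := μ) hD))
  have ha' : Integrable (fun t => (fourier n t).re * ‖a t‖ ^ 2) cm :=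
    ha.bdd_mul (c := 1) (Complex.continuous_re.comp (fourier n).continuous).aestronglyMeasurable
      (Eventually.of_forall fun t => by
        refine (Complex.abs_re_le_norm _).trans ?_
        rw [fourier_apply, Circle.norm_coe])
  calc ∫ x, (rc μ D (tp T n x) - rc μ D x) ^ 2 ∂μ
      = ∫ x, (rc μ D (tp T n x) ^ 2 + rc μ D x ^ 2) - 2 * (rc μ D (tp T n x) * rc μ D x) ∂μ := by
        congr 1; funext x; ring
    _ = (∫ x, rc μ D (tp T n x) ^ 2 ∂μ + ∫ x, rc μ D x ^ 2 ∂μ)
          - 2 * ∫ x, rc μ D (tp T n x) * rc μ D x ∂μ := by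
        rw [integral_sub (f := fun x => rc μ D (tp T n x) ^ 2 + rc μ D x ^ 2)
          (g := fun x => 2 * (rc μ D (tp T n x) * rc μ D x)) (iA.add iB) (iC.const_mul 2),
          integral_add iA iB, integral_const_mul]
    _ = 2 * ((∫ t, ‖a t‖ ^ 2 ∂cm) - ∫ t, (fourier n t).re * ‖a t‖ ^ 2 ∂cm) := by
        rw [e1, e2, autocorr hF hD n]; ring
    _ = _ := by
        rw [← integral_sub ha ha']
        congr 2; funext t; ring

lemma not_invariant (hT : MeasurePreserving T μ μ) (hF : IsSpec μ T F) {D : Set X}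
    (hD : MeasurableSet D) (h0 : 0 < μ D) (h1 : μ D < 1) {n : ℤ} (hn : n ≠ 0) :
    ¬ D =ᵐ[μ] tp T n ⁻¹' D := by
  intro h
  have hz : ∫ x, (rc μ D (tp T n x) - rc μ D x) ^ 2 ∂μ = 0 := by
    apply integral_eq_zero_of_ae
    filter_upwards [h] with x hx
    have e : x ∈ D ↔ tp T n x ∈ D := iff_of_eq hx
    have : rc μ D (tp T n x) = rc μ D x := by
      unfold rc
      by_cases hd : x ∈ D
      · simp [hd, e.1 hd]
      · simp [hd, mt e.2 hd]
    simp [this]
  rw [energy hT hF hD n] at hz
  set a := F (fun x => (rc μ D x : ℂ))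
  have ha := integrable_norm_sq (hF.1 _ (rc_memLp (μ := μ) hD))
  have hnn : 0 ≤ᵐ[cm] fun t => (1 - (fourier n t).re) * ‖a t‖ ^ 2 :=
    Eventually.of_forall fun t => mul_nonneg (sub_nonneg.2 (fourier_re_le n t)) (sq_nonneg _)
  have hi : Integrable (fun t => (1 - (fourier n t).re) * ‖a t‖ ^ 2) cm :=
    ha.bdd_mul (c := 2) (continuous_const.sub
      (Complex.continuous_re.comp (fourier n).continuous)).aestronglyMeasurable
      (Eventually.of_forall fun t => by
        have := Complex.abs_re_le_norm (fourier n t)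
        rw [fourier_apply, Circle.norm_coe] at this
        rw [Real.norm_eq_abs, abs_le]
        rcases abs_le.1 this with ⟨u, v⟩
        simp only [fourier_apply]
        constructor <;> linarith)
  have hae := (integral_eq_zero_iff_of_nonneg_ae hnn hi).1 (by linarith)
  have hne : ∀ᵐ t ∂cm, (fourier n t).re ≠ 1 := by
    rw [ae_iff]; simpa using re_eq_one_null hn
  have ha0 : ∫ t, ‖a t‖ ^ 2 ∂cm = 0 := by
    apply integral_eq_zero_of_ae
    filter_upwards [hae, hne] with t ht ht'
    rcases mul_eq_zero.1 ht with h' | h'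
    · exact absurd (by linarith) ht'
    · exact h'
  have hs := autocorr hF hD 0
  simp only [tp, zpow_zero, Equiv.Perm.coe_one, id, fourier_zero, Complex.one_re, one_mul] at hs
  rw [ha0] at hs
  have hq : μ.real D * (1 - μ.real D) = 0 := by
    rw [← rc_sq hD]; simpa [pow_two] using hs
  have p0 : 0 < μ.real D := ENNReal.toReal_pos h0.ne' (measure_ne_top _ _)
  have p1 : μ.real D < 1 := by
    have := (ENNReal.toReal_lt_toReal (measure_ne_top μ D) ENNReal.one_ne_top).2 h1
    simpa [measureReal_def] using this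
  nlinarith

lemma tp_measurable (h : @Measurable X X C C T)
    (hs : @Measurable X X C C T.symm) (n : ℤ) : @Measurable X X C C (tp T n) := by
  induction n using Int.induction_on with
  | zero => simpa [tp] using measurable_id
  | succ i ih =>
    have : tp T (i + 1) = tp T i ∘ T := funext fun x => by
      rw [tp_add]; simp [tp]
    rw [this]; exact ih.comp h
  | pred i ih =>
    have : tp T (-i - 1) = tp T (-i) ∘ T.symm := funext fun x => by
      rw [sub_eq_add_neg, tp_add]; simp [tp]
    rw [this]; exact ih.comp hs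

lemma exists_base (hT : MeasurePreserving T μ μ) (hF : IsSpec μ T F)
    (hC : C ≤ m0) (hCT : ∀ n, @Measurable X X C C (tp T n))
    {A : Set X} (hA : MeasurableSet[C] A) (hA0 : 0 < μ A) (hA1 : μ A < 1) (N : ℕ) :
    ∃ B, MeasurableSet[C] B ∧ 0 < μ B ∧ μ B < 1 ∧
      ∀ j : ℕ, 1 ≤ j → j ≤ N → μ (B ∩ tp T j ⁻¹' B) = 0 := by
  induction N with
  | zero => exact ⟨A, hA, hA0, hA1, fun j h1 h2 => by omega⟩
  | succ N ih =>
    obtain ⟨B, hB, hB0, hB1, hdis⟩ := ih
    set P := tp T (N + 1 : ℕ) ⁻¹' B
    have hP : MeasurableSet[C] P := hCT _ hB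
    refine ⟨B \ P, hB.diff hP, ?_, (measure_mono Set.sdiff_subset).trans_lt hB1, ?_⟩
    · by_contra hne
      have hz : μ (B \ P) = 0 := le_antisymm (not_lt.1 hne) zero_le
      have hle : B ≤ᵐ[μ] P := ae_le_set.2 hz
      have hge : μ P ≤ μ B := le_of_eq <|
        (tp_mp hT _).measure_preimage (hC _ hB).nullMeasurableSet
      exact not_invariant hT hF (hC _ hB) hB0 hB1 (n := ((N + 1 : ℕ) : ℤ)) (by omega)
        (ae_eq_of_ae_subset_of_measure_ge hle hge (hC _ hB).nullMeasurableSet (measure_ne_top _ _))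
    · intro j hj hjN
      rcases Nat.lt_or_eq_of_le hjN with h | h
      · refine measure_mono_null ?_ (hdis j hj (by omega))
        exact Set.inter_subset_inter Set.sdiff_subset (Set.preimage_mono Set.sdiff_subset)
      · subst h
        convert measure_empty (μ := μ)
        exact Set.eq_empty_of_forall_notMem fun x hx => hx.1.2 hx.2.1

omit [IsProbabilityMeasure μ] in
lemma tower_null (hT : MeasurePreserving T μ μ) {B : Set X} (hB : MeasurableSet B) {N : ℕ}
    (hdis : ∀ j : ℕ, 1 ≤ j → j ≤ N → μ (B ∩ tp T j ⁻¹' B) = 0) {M : ℕ} (hM : M ≤ N + 1) :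
    μ (⋃ k ∈ Finset.range M, tp T k ⁻¹' B) = M * μ B := by
  have hlt : ∀ k l : ℕ, k < l → l < M → μ (tp T k ⁻¹' B ∩ tp T l ⁻¹' B) = 0 := by
    intro k l hkl hl
    have e : tp T k ⁻¹' B ∩ tp T l ⁻¹' B = tp T k ⁻¹' (B ∩ tp T (l - k : ℕ) ⁻¹' B) := by
      ext x
      simp only [Set.mem_inter_iff, Set.mem_preimage, ← tp_add]
      rw [show ((l - k : ℕ) : ℤ) + k = l by omega]
    rw [e, (tp_mp hT _).measure_preimage (hB.inter ((tp_mp hT _).measurable hB)).nullMeasurableSet]
    exact hdis _ (by omega) (by omega)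
  rw [measure_biUnion_finset₀ (fun k hk l hl hkl => ?_)
    (fun k _ => ((tp_mp hT _).measurable hB).nullMeasurableSet)]
  · simp [fun k : ℕ => (tp_mp hT (k : ℤ)).measure_preimage hB.nullMeasurableSet]
  · rcases lt_or_gt_of_ne hkl with h | h
    · exact hlt k l h (Finset.mem_range.1 hl)
    · change μ (_ ∩ _) = 0
      rw [Set.inter_comm]; exact hlt l k h (Finset.mem_range.1 hk)

/-- Almost invariant centred indicators have small spectral weight off any neighbourhood of `0`. -/
lemma exists_near_zero (hT : MeasurePreserving T μ μ) (hF : IsSpec μ T F)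
    (hC : C ≤ m0) (hCT : ∀ n, @Measurable X X C C (tp T n))
    {A : Set X} (hA : MeasurableSet[C] A) (hA0 : 0 < μ A) (hA1 : μ A < 1)
    {W : Set Circ} (hW : IsOpen W) (hW0 : (0 : Circ) ∈ W) :
    ∃ E, MeasurableSet[C] E ∧
      ¬ ∀ᵐ t ∂cm, t ∈ W → F (fun x => (rc μ E x : ℂ)) t = 0 := by
  obtain ⟨c, hc, hcW⟩ : ∃ c : ℝ, 0 < c ∧ ∀ t ∈ Wᶜ, c ≤ 1 - (fourier 1 t).re := by
    refine (hW.isClosed_compl.isCompact).exists_forall_le' (a := (0 : ℝ)) ?_ fun t ht => ?_
    · exact (continuous_const.sub
        (Complex.continuous_re.comp (fourier 1).continuous)).continuousOn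
    · rcases (sub_nonneg.2 (fourier_re_le 1 t)).lt_or_eq with h | h
      · exact h
      · have := zsmul_eq_zero_of_re (n := 1) (t := t) (by linarith)
        simp only [one_smul] at this
        exact absurd (this ▸ hW0) ht
  obtain ⟨M, hM⟩ := exists_nat_gt (2 / c)
  have hM0 : 0 < M := by
    have : (0 : ℝ) < M := lt_trans (by positivity) hM
    exact_mod_cast this
  obtain ⟨B, hB, hB0, -, hdis⟩ := exists_base hT hF hC hCT hA hA0 hA1 (2 * M)
  have hB' := hC _ hB
  set E := ⋃ k ∈ Finset.range M, tp T (k : ℕ) ⁻¹' B with hEdef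
  have hE : MeasurableSet[C] E := Finset.measurableSet_biUnion _ fun k _ => hCT _ hB
  refine ⟨E, hE, fun hvan => ?_⟩
  have hE' := hC _ hE
  set p := μ.real E with hp
  set b := μ.real B with hb
  have hb0 : 0 < b := ENNReal.toReal_pos hB0.ne' (measure_ne_top _ _)
  have hpM : p = M * b := by
    rw [hp, measureReal_def, tower_null hT hB' hdis (by omega), ENNReal.toReal_mul]
    simp [hb, measureReal_def]
  have h2M : 2 * (M : ℝ) * b ≤ 1 := by
    have := measureReal_le_one (μ := μ) (s := ⋃ k ∈ Finset.range (2 * M), tp T (k : ℕ) ⁻¹' B)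
    rw [measureReal_def, tower_null hT hB' hdis (by omega), ENNReal.toReal_mul] at this
    simpa [hb, measureReal_def] using this
  set P := tp T (M : ℕ) ⁻¹' B
  have hP : MeasurableSet P := (tp_mp hT _).measurable hB'
  have hPb : μ.real P = b := by
    rw [hb, measureReal_def, measureReal_def, (tp_mp hT _).measure_preimage hB'.nullMeasurableSet]
  -- the energy at shift one is at most `2 b`
  have hsmall : ∫ x, (rc μ E (tp T 1 x) - rc μ E x) ^ 2 ∂μ ≤ 2 * b := by
    have hpt : ∀ x, (rc μ E (tp T 1 x) - rc μ E x) ^ 2 ≤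
        B.indicator (fun _ => (1 : ℝ)) x + P.indicator (fun _ => (1 : ℝ)) x := by
      intro x
      have nn : ∀ S : Set X, 0 ≤ S.indicator (fun _ => (1 : ℝ)) x := fun S =>
        Set.indicator_nonneg (fun _ _ => zero_le_one) x
      by_cases h1 : tp T 1 x ∈ E <;> by_cases h2 : x ∈ E
      · simpa [rc, h1, h2] using add_nonneg (nn B) (nn P)
      · have hxP : x ∈ P := by
          simp only [hEdef, Set.mem_iUnion, Set.mem_preimage, Finset.mem_range, ← tp_add] at h1
          obtain ⟨k, hk, hk'⟩ := h1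
          rcases Nat.lt_or_eq_of_le (Nat.succ_le_of_lt hk) with h | h
          · refine absurd ?_ h2
            simp only [hEdef, Set.mem_iUnion, Set.mem_preimage, Finset.mem_range]
            exact ⟨k + 1, h, by simpa using hk'⟩
          · change tp T (M : ℕ) x ∈ B
            rw [← h]; simpa using hk'
        simpa [rc, h1, h2, hxP] using nn B
      · have hxB : x ∈ B := by
          simp only [hEdef, Set.mem_iUnion, Set.mem_preimage, Finset.mem_range] at h2
          obtain ⟨k, hk, hk'⟩ := h2
          rcases Nat.eq_zero_or_pos k with h | h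
          · subst h; simpa [tp] using hk'
          · refine absurd ?_ h1
            simp only [hEdef, Set.mem_iUnion, Set.mem_preimage, Finset.mem_range, ← tp_add]
            refine ⟨k - 1, by omega, ?_⟩
            rwa [show ((k - 1 : ℕ) : ℤ) + 1 = k by omega]
        simp [rc, h1, h2, hxB]
        ring_nf
        linarith [nn P]
      · simpa [rc, h1, h2] using add_nonneg (nn B) (nn P)
    have iB : Integrable (B.indicator fun _ => (1 : ℝ)) μ := (integrable_const _).indicator hB'
    have iP : Integrable (P.indicator fun _ => (1 : ℝ)) μ := (integrable_const _).indicator hP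
    calc _ ≤ ∫ x, B.indicator (fun _ => (1 : ℝ)) x + P.indicator (fun _ => (1 : ℝ)) x ∂μ :=
          integral_mono_of_nonneg (Eventually.of_forall fun x => sq_nonneg _) (iB.add iP)
            (Eventually.of_forall hpt)
      _ = 2 * b := by
          rw [integral_add iB iP, integral_indicator hB', integral_indicator hP]
          simp [hPb, hb]
          ring
  rw [energy hT hF hE' 1] at hsmall
  set a := F (fun x => (rc μ E x : ℂ))
  have ha := integrable_norm_sq (hF.1 _ (rc_memLp (μ := μ) hE'))
  have ha0 : ∫ t, ‖a t‖ ^ 2 ∂cm = p * (1 - p) := by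
    have hs := autocorr hF hE' 0
    simp only [tp, zpow_zero, Equiv.Perm.coe_one, id, fourier_zero, Complex.one_re, one_mul] at hs
    rw [hp, ← rc_sq hE', ← hs]; simp [pow_two]
  have hlow : c * (p * (1 - p)) ≤ ∫ t, (1 - (fourier 1 t).re) * ‖a t‖ ^ 2 ∂cm := by
    rw [← ha0, ← integral_const_mul]
    refine integral_mono_ae (ha.const_mul c) ?_ ?_
    · exact ha.bdd_mul (c := 2) (continuous_const.sub
        (Complex.continuous_re.comp (fourier 1).continuous)).aestronglyMeasurable
        (Eventually.of_forall fun t => by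
          have h' := Complex.abs_re_le_norm (fourier 1 t)
          rw [fourier_apply, Circle.norm_coe] at h'
          rw [Real.norm_eq_abs, abs_le]
          rcases abs_le.1 h' with ⟨u, v⟩
          simp only [fourier_apply]
          constructor <;> linarith)
    · filter_upwards [hvan] with t ht
      by_cases htW : t ∈ W
      · simp [ht htW]
      · exact mul_le_mul_of_nonneg_right (hcW t htW) (sq_nonneg _)
  have hc2 : 2 < c * M := by
    rw [div_lt_iff₀ hc] at hM; linarith
  have hp2 : p ≤ 1 / 2 := by rw [hpM]; linarith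
  have hp0 : 0 ≤ p := measureReal_nonneg
  have h3 : c * p * (1 / 2) ≤ c * (p * (1 - p)) := by nlinarith
  rw [hpM] at h3 hlow
  nlinarith [mul_lt_mul_of_pos_right hc2 hb0]

end P130Indep
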