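import Vale.Agent.P130.SimpleLebesgue

/-!
Cyclicity along a refining chain of cell vectors, and removal of the atom of the spectral measure.
-/

open MeasureTheory AddCircle Filter Topology
open scoped InnerProductSpace ComplexConjugate ENNReal

namespace P130Simple

open P130Indep

variable {X : Type*} [MeasurableSpace X] {μ : Measure X} {T : X ≃ᵐ X}

lemma cm_singleton (x : Circ) : cm {x} = 0 := by
  have h : (volume : Measure Circ) = cm := by
    simpa using volume_eq_smul_haarAddCircle (T := (1 : ℝ))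
  rw [← h, ← Metric.closedBall_zero, AddCircle.volume_closedBall]
  simp

/-- A sum of distinct characters is nonzero almost everywhere. -/
lemma ae_charSum_ne_zero {p : ℕ} (hp : 0 < p) (s : ℕ → ℕ)
    (hs : Set.InjOn s (Finset.range p : Set ℕ)) :
    ∀ᵐ t ∂cm, ∑ j ∈ Finset.range p, fourier (s j : ℤ) t ≠ 0 := by
  classical
  set P : Polynomial ℂ := ∑ j ∈ Finset.range p, Polynomial.monomial (s j) 1
  have hP : P ≠ 0 := by
    intro h
    have h0 := congrArg (fun q => Polynomial.coeff q (s 0)) h
    simp only [P, Polynomial.finsetSum_coeff, Polynomial.coeff_monomial,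
      Polynomial.coeff_zero] at h0
    rw [Finset.sum_eq_single 0 (fun j hj hne => if_neg fun he => hne
      (hs hj (Finset.mem_range.2 hp) he)) (fun h => absurd (Finset.mem_range.2 hp) h), if_pos rfl]
      at h0
    exact one_ne_zero h0
  have hev : ∀ t : Circ, P.eval (fourier 1 t) = ∑ j ∈ Finset.range p, fourier (s j : ℤ) t := by
    intro t
    simp only [P, Polynomial.eval_finsetSum, Polynomial.eval_monomial, one_mul]
    refine Finset.sum_congr rfl fun j _ => ?_
    rw [fourier_apply, fourier_apply, one_smul, ← Circle.coe_pow]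
    congr 1
    induction (s j) with
    | zero => simp; rfl
    | succ k ih => rw [pow_succ, ih, Nat.cast_succ, add_zsmul, one_smul, toCircle_add]
  have hinj : Function.Injective fun t : Circ => (fourier 1 t : ℂ) := fun a b h => by
    simp only [fourier_apply, one_smul] at h
    exact injective_toCircle one_ne_zero (Subtype.ext h)
  have hfin : Set.Finite {t : Circ | P.eval (fourier 1 t) = 0} :=
    (P.finite_setOfPred_isRoot hP).preimage hinj.injOn
  rw [ae_iff]
  refine measure_mono_null (fun t ht => ?_) (@Set.Countable.measure_zero _ _ _ hfin.countable cm ⟨cm_singleton⟩)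
  change P.eval (fourier 1 t) = 0
  rw [hev t]
  exact not_not.1 ht

/-- Cyclicity along a refining chain, hence an orthonormal orbit. -/
theorem exists_orthonormal_orbit_of_chain [IsProbabilityMeasure μ] (hT : MeasurePreserving T μ μ)
    (b : ℕ → X → ℂ) (hb : ∀ n, MemLp (b n) 2 μ) (hb0 : ∀ n, ∫ x, b n x ∂μ = 0)
    (p : ℕ → ℕ) (hp : ∀ n, 0 < p n) (s : ℕ → ℕ → ℕ)
    (hs : ∀ n, Set.InjOn (s n) (Finset.range (p n) : Set ℕ))
    (href : ∀ n, b n =ᵐ[μ] fun x => ∑ j ∈ Finset.range (p n), b (n + 1) (tp T (-(s n j : ℤ)) x))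
    (ρ : ℕ → Circ → ℝ) (hρ : ∀ n, Integrable (ρ n) cm) (hpos : ∀ n, ∀ᵐ t ∂cm, 0 < ρ n t)
    (hcorr : ∀ n (k : ℤ), ∫ x, conj (b n x) * b n (tp T k x) ∂μ
      = ∫ t, fourier k t * (ρ n t : ℂ) ∂cm)
    (htot : ∀ g : X → ℂ, MemLp g 2 μ → ∫ x, g x ∂μ = 0 →
      (∀ n (k : ℤ), ∫ x, conj (b n (tp T k x)) * g x ∂μ = 0) → g =ᵐ[μ] 0) :
    ∃ g : X → ℂ, MemLp g 2 μ ∧ ∫ x, g x ∂μ = 0 ∧
      (∀ m n : ℤ, ∫ x, conj (g (tp T m x)) * g (tp T n x) ∂μ = if m = n then 1 else 0) ∧
      ∀ h : X → ℂ, MemLp h 2 μ → ∫ x, h x ∂μ = 0 →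
        (∀ n : ℤ, ∫ x, conj (g (tp T n x)) * h x ∂μ = 0) → h =ᵐ[μ] 0 := by
  classical
  refine exists_orthonormal_orbit' hT (b 0) (hb 0) (hb0 0) (ρ 0) (hρ 0) (hpos 0) (hcorr 0)
    fun g hg hg0 horth => htot g hg hg0 fun n => ?_
  induction n with
  | zero => exact horth
  | succ n ih =>
    -- correlations between translates of `b (n+1)` and the isometry from the circle
    have hbk : ∀ k, MemLp (fun x => b (n + 1) (tp T k x)) 2 μ :=
      fun k => (hb (n + 1)).comp_measurePreserving (tp_mp hT k)
    set a : ℤ → Lp ℂ 2 μ := fun k => (hbk k).toLp _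
    set r : Circ → ℂ := fun t => ((Real.sqrt (ρ (n + 1) t) : ℝ) : ℂ)
    have hrm : AEStronglyMeasurable r cm :=
      (Complex.continuous_ofReal.comp Real.continuous_sqrt).comp_aestronglyMeasurable
        (hρ (n + 1)).1
    have hen : ∀ k : ℤ, MemLp (fun t => fourier k t * r t) 2 cm := by
      intro k
      refine (memLp_two_iff_integrable_sq_norm
        ((fourier k).continuous.aestronglyMeasurable.mul hrm)).2 ((hρ (n + 1)).congr ?_)
      filter_upwards [hpos (n + 1)] with t ht
      rw [Pi.mul_apply, norm_mul, fourier_apply, Circle.norm_coe, one_mul]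
      simp [r, Real.sq_sqrt ht.le]
    set e : ℤ → Lp ℂ 2 cm := fun k => (hen k).toLp _
    have hgram : ∀ i j, ⟪a i, a j⟫_ℂ = ⟪e i, e j⟫_ℂ := by
      intro i j
      rw [inner_toLp, inner_toLp]
      have hfk : MemLp (fun x => b (n + 1) (tp T (j - i) x)) 2 μ := hbk _
      have h := integral_tp hT i (fun x => conj (b (n + 1) x) * b (n + 1) (tp T (j - i) x))
        ((Complex.continuous_conj.comp_aestronglyMeasurable (hb (n + 1)).1).mul hfk.1)
      simp only [← tp_add, sub_add_cancel] at h
      rw [h, hcorr]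
      refine integral_congr_ae ?_
      filter_upwards [hpos (n + 1)] with t ht
      have e2 : (r t) * (r t) = (ρ (n + 1) t : ℂ) := by
        simp only [r, ← Complex.ofReal_mul, Real.mul_self_sqrt ht.le]
      rw [sub_eq_neg_add, fourier_add, fourier_neg, map_mul, ← e2]
      simp only [r, Complex.conj_ofReal]
      ring
    have hspan : (Submodule.span ℂ (Set.range e)).topologicalClosure = ⊤ := by
      rw [Submodule.topologicalClosure_eq_top_iff, Submodule.eq_bot_iff]
      intro x hx
      have hx' : ∀ k, ⟪e k, x⟫_ℂ = 0 := fun k =>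
        (Submodule.mem_orthogonal _ x).1 hx _ (Submodule.subset_span ⟨k, rfl⟩)
      have hint : Integrable (fun t => r t * x t) cm := by
        refine (L2.integrable_inner (𝕜 := ℂ) (e 0) x).congr ?_
        filter_upwards [(hen 0).coeFn_toLp] with t ht
        rw [RCLike.inner_apply', ht]
        simp [r]
      have h0 : (fun t => r t * x t) =ᵐ[cm] 0 := by
        refine ae_eq_zero_of_fourier hint fun k => ?_
        rw [← hx' (-k), L2.inner_def]
        refine integral_congr_ae ?_
        filter_upwards [(hen (-k)).coeFn_toLp] with t ht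
        rw [RCLike.inner_apply', ht, map_mul, fourier_neg, Complex.conj_conj]
        simp only [r, Complex.conj_ofReal]
        ring
      apply Lp.ext
      filter_upwards [h0, hpos (n + 1), Lp.coeFn_zero ℂ 2 cm] with t h hp hz
      rw [hz]
      rcases mul_eq_zero.1 h with h1 | h1
      · exact absurd h1 (by simpa [r] using (Real.sqrt_pos.2 hp).ne')
      · exact h1
    obtain ⟨V, hV⟩ := exists_isometry_of_gram e a hspan hgram
    set u : Lp ℂ 2 cm := ContinuousLinearMap.adjoint V.toContinuousLinearMap (hg.toLp g)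
    have hu : ∀ k, ⟪e k, u⟫_ℂ = ∫ x, conj (b (n + 1) (tp T k x)) * g x ∂μ := by
      intro k
      rw [ContinuousLinearMap.adjoint_inner_right]
      change ⟪V (e k), hg.toLp g⟫_ℂ = _
      rw [hV, inner_toLp]
    have hz : ∀ k : ℤ, ∑ j ∈ Finset.range (p n), ⟪e (k - (s n j : ℤ)), u⟫_ℂ = 0 := by
      intro k
      simp only [hu]
      rw [← ih k, ← integral_finsetSum]
      · refine integral_congr_ae ?_
        filter_upwards [(tp_mp hT k).quasiMeasurePreserving.ae_eq (href n)] with x hx
        simp only [Function.comp_apply] at hx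
        rw [hx, map_sum, Finset.sum_mul]
        refine Finset.sum_congr rfl fun j _ => ?_
        rw [← tp_add, sub_eq_neg_add]
      · intro j _
        refine (L2.integrable_inner (𝕜 := ℂ) (a (k - (s n j : ℤ))) (hg.toLp g)).congr ?_
        filter_upwards [(hbk (k - (s n j : ℤ))).coeFn_toLp, hg.coeFn_toLp] with x h1 h2
        rw [RCLike.inner_apply', h1, h2]
    set Q : Circ → ℂ := fun t => ∑ j ∈ Finset.range (p n), fourier (s n j : ℤ) t
    have hQc : Continuous Q := continuous_finsetSum _ fun j _ => (fourier _).continuous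
    have hint : Integrable (fun t => Q t * (r t * u t)) cm := by
      have hru : Integrable (fun t => r t * u t) cm := by
        refine (L2.integrable_inner (𝕜 := ℂ) (e 0) u).congr ?_
        filter_upwards [(hen 0).coeFn_toLp] with t ht
        rw [RCLike.inner_apply', ht]
        simp [r]
      exact hru.bdd_mul (c := ‖(⟨Q, hQc⟩ : C(Circ, ℂ))‖) hQc.aestronglyMeasurable
        (Eventually.of_forall fun t => (⟨Q, hQc⟩ : C(Circ, ℂ)).norm_coe_le_norm t)
    have h0 : (fun t => Q t * (r t * u t)) =ᵐ[cm] 0 := by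
      refine ae_eq_zero_of_fourier hint fun k => ?_
      rw [← hz (-k)]
      simp only [L2.inner_def]
      rw [← integral_finsetSum _ fun j _ => L2.integrable_inner (𝕜 := ℂ) _ _]
      refine integral_congr_ae ?_
      filter_upwards [eventually_countable_forall.2 fun j : ℕ =>
        (hen (-k - (s n j : ℤ))).coeFn_toLp] with t ht
      simp only [Q, Finset.sum_mul, Finset.mul_sum]
      refine Finset.sum_congr rfl fun j _ => ?_
      rw [RCLike.inner_apply', ht j, map_mul, show -k - (s n j : ℤ) = -(k + (s n j : ℤ)) by ring,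
        fourier_neg, Complex.conj_conj, fourier_add]
      simp only [r, Complex.conj_ofReal]
      ring
    have hu0 : u = 0 := by
      apply Lp.ext
      filter_upwards [h0, hpos (n + 1), ae_charSum_ne_zero (hp n) (s n) (hs n),
        Lp.coeFn_zero ℂ 2 cm] with t h hpt hQ hz'
      rw [hz']
      rcases mul_eq_zero.1 h with h1 | h1
      · exact absurd h1 hQ
      · rcases mul_eq_zero.1 h1 with h2 | h2
        · exact absurd h2 (by simpa [r] using (Real.sqrt_pos.2 hpt).ne')
        · exact h2
    intro k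
    rw [← hu k, hu0, inner_zero_right]

/-- For an ergodic map the spectral measure of a mean-zero vector has no atom at zero. -/
theorem atom_eq_zero [IsProbabilityMeasure μ] (hT : MeasurePreserving T μ μ)
    (f : X → ℂ) (hf : MemLp f 2 μ) (hf0 : ∫ x, f x ∂μ = 0)
    (ρ : Circ → ℝ) (hρ : Integrable ρ cm) (a : ℂ)
    (hcorr : ∀ k : ℕ, ∫ x, conj (f x) * f (tp T (k : ℤ) x) ∂μ
      = (∫ t, fourier (k : ℤ) t * (ρ t : ℂ) ∂cm) + a)
    (herg : ∀ g : X → ℂ, MemLp g 2 μ → (fun x => g (T x)) =ᵐ[μ] g →
      g =ᵐ[μ] fun _ => ∫ x, g x ∂μ) : a = 0 := by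
  classical
  set U : Lp ℂ 2 μ →L[ℂ] Lp ℂ 2 μ :=
    (Lp.compMeasurePreservingₗᵢ ℂ T hT).toContinuousLinearMap
  have hU : ‖U‖ ≤ 1 := LinearIsometry.norm_toContinuousLinearMap_le _
  set v := hf.toLp f
  have hiter : ∀ k : ℕ, (U^[k] v : X → ℂ) =ᵐ[μ] fun x => f (tp T (k : ℤ) x) := by
    intro k
    induction k with
    | zero => simpa [tp] using hf.coeFn_toLp
    | succ k ih =>
      rw [Function.iterate_succ_apply']
      refine (Lp.coeFn_compMeasurePreserving _ hT).trans
        ((hT.quasiMeasurePreserving.ae_eq ih).trans (Eventually.of_forall fun x => ?_))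
      change f (tp T (k : ℤ) (T x)) = f (tp T ((k + 1 : ℕ) : ℤ) x)
      rw [Nat.cast_succ, tp_add]
      simp [tp]
  have hlim := U.tendsto_birkhoffAverage_orthogonalProjection hU v
  set w : Lp ℂ 2 μ := ((U.eqLocus (1 : Lp ℂ 2 μ →L[ℂ] Lp ℂ 2 μ)).orthogonalProjectionOnto v : Lp ℂ 2 μ)
  have hwfix : U w = w :=
    ((U.eqLocus (1 : Lp ℂ 2 μ →L[ℂ] Lp ℂ 2 μ)).orthogonalProjectionOnto v).2
  let one : Lp ℂ 2 μ := (memLp_const (1 : ℂ)).toLp _
  have hone : ∀ y : Lp ℂ 2 μ, ⟪one, y⟫_ℂ = ∫ x, y x ∂μ := by
    intro y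
    rw [L2.inner_def]
    refine integral_congr_ae ?_
    filter_upwards [(memLp_const (μ := μ) (p := 2) (1 : ℂ)).coeFn_toLp] with x hx
    rw [RCLike.inner_apply', hx]; simp
  have havg : ∀ (N : ℕ) (y : Lp ℂ 2 μ), ⟪y, birkhoffAverage ℂ U _root_.id N v⟫_ℂ
      = (N : ℂ)⁻¹ * ∑ k ∈ Finset.range N, ⟪y, U^[k] v⟫_ℂ := by
    intro N y
    simp [birkhoffAverage, birkhoffSum, inner_smul_right, inner_sum]
  have hwmean : ∫ x, w x ∂μ = 0 := by
    rw [← hone]
    refine tendsto_nhds_unique ((tendsto_const_nhds.inner hlim) : Tendsto _ atTop _) ?_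
    refine tendsto_const_nhds.congr fun N => ?_
    rw [havg, Finset.sum_eq_zero, mul_zero]
    intro k _
    rw [hone, integral_congr_ae (hiter k), integral_tp hT (k : ℤ) f hf.1, hf0]
  have hw0 : w = 0 := by
    have h1 : (fun x => w (T x)) =ᵐ[μ] w := by
      have := Lp.coeFn_compMeasurePreserving w hT
      refine this.symm.trans ?_
      change (U w : X → ℂ) =ᵐ[μ] w
      rw [hwfix]
    apply Lp.ext
    filter_upwards [herg w (Lp.memLp w) h1, Lp.coeFn_zero ℂ 2 μ] with x hx h0
    rw [hx, hwmean, h0]; rfl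
  have h1 : Tendsto (fun N => ⟪v, birkhoffAverage ℂ U _root_.id N v⟫_ℂ) atTop (𝓝 0) := by
    have := ((tendsto_const_nhds (x := v)).inner hlim : Tendsto _ atTop (𝓝 ⟪v, w⟫_ℂ))
    rwa [hw0, inner_zero_right] at this
  set A : ℕ → Circ → ℂ := fun N t => (N : ℂ)⁻¹ * ∑ k ∈ Finset.range N, fourier (k : ℤ) t
  have hint : ∀ k : ℕ, Integrable (fun t => fourier (k : ℤ) t * (ρ t : ℂ)) cm := fun k =>
    hρ.ofReal.bdd_mul (c := 1) (fourier _).continuous.aestronglyMeasurable
      (Eventually.of_forall fun t => by rw [fourier_apply, Circle.norm_coe])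
  have h2 : Tendsto (fun N => ∫ t, A N t * (ρ t : ℂ) ∂cm) atTop (𝓝 0) := by
    have h : Tendsto (fun N => ∫ t, A N t * (ρ t : ℂ) ∂cm) atTop (𝓝 (∫ _t, (0 : ℂ) ∂cm)) := by
      refine tendsto_integral_of_dominated_convergence (fun t => ‖ρ t‖) (fun N => ?_) hρ.norm
        (fun N => Eventually.of_forall fun t => ?_) ?_
      · exact (Continuous.aestronglyMeasurable (by fun_prop)).mul hρ.ofReal.1
      · rw [norm_mul, Complex.norm_real]
        refine mul_le_of_le_one_left (norm_nonneg _) ?_
        rw [norm_mul, norm_inv, Complex.norm_natCast]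
        rcases Nat.eq_zero_or_pos N with rfl | hN
        · simp
        rw [inv_mul_le_iff₀ (by exact_mod_cast hN), mul_one]
        exact (norm_sum_le _ _).trans (le_of_eq (by simp only [fourier_apply, Circle.norm_coe, Finset.sum_const, Finset.card_range, nsmul_eq_mul, mul_one]))
      · have hne : ∀ᵐ t ∂cm, t ≠ (0 : Circ) := by
          simp [ae_iff, cm_singleton]
        filter_upwards [hne] with t ht
        have hz1 : (fourier 1 t : ℂ) ≠ 1 := by
          intro h
          rw [fourier_apply, one_smul] at h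
          exact ht (injective_toCircle one_ne_zero (by rw [toCircle_zero]; exact Subtype.ext h))
        have hpow : ∀ k : ℕ, (fourier (k : ℤ) t : ℂ) = (fourier 1 t : ℂ) ^ k := by
          intro k
          induction k with
          | zero => simp
          | succ k ih => rw [Nat.cast_succ, fourier_add, ih, pow_succ]
        rw [tendsto_zero_iff_norm_tendsto_zero]
        refine squeeze_zero (fun N => norm_nonneg _) (fun N => ?_)
          (tendsto_const_div_atTop_nhds_zero_nat (2 / ‖(fourier 1 t : ℂ) - 1‖ * ‖ρ t‖))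
        rw [norm_mul, Complex.norm_real, norm_mul, norm_inv, Complex.norm_natCast]
        simp only [hpow, geom_sum_eq hz1, norm_div]
        rw [div_eq_inv_mul _ (N : ℝ), mul_assoc, mul_comm (2 / _)]
        refine mul_le_mul_of_nonneg_left ?_ (by positivity)
        rw [mul_comm]
        refine mul_le_mul_of_nonneg_left ?_ (norm_nonneg _)
        refine div_le_div_of_nonneg_right ?_ (norm_nonneg _)
        refine (norm_sub_le _ _).trans (le_of_eq ?_)
        rw [norm_pow, fourier_apply, Circle.norm_coe, one_pow, norm_one]; norm_num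
    rwa [integral_zero] at h
  have h3 : Tendsto (fun N => ⟪v, birkhoffAverage ℂ U _root_.id N v⟫_ℂ) atTop (𝓝 (0 + a)) := by
    refine (h2.add (tendsto_const_nhds (x := a))).congr' ?_
    filter_upwards [eventually_gt_atTop 0] with N hN
    rw [havg]
    have e : ∀ k ∈ Finset.range N, ⟪v, U^[k] v⟫_ℂ
        = (∫ t, fourier (k : ℤ) t * (ρ t : ℂ) ∂cm) + a := by
      intro k _
      rw [← hcorr k, L2.inner_def]
      refine integral_congr_ae ?_
      filter_upwards [hf.coeFn_toLp, hiter k] with x hx hx'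
      rw [RCLike.inner_apply', hx, hx']
    rw [Finset.sum_congr rfl e, Finset.sum_add_distrib, Finset.sum_const, Finset.card_range,
      nsmul_eq_mul, ← integral_finsetSum _ fun k _ => hint k, mul_add, ← mul_assoc,
      inv_mul_cancel₀ (by exact_mod_cast hN.ne'), one_mul, ← integral_const_mul]
    simp only [A, Finset.sum_mul, mul_assoc]
  simpa using (tendsto_nhds_unique h1 h3).symm

end P130Simple
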