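import Vale.Agent.P130.Circle

/-!
Endgame for simple Lebesgue spectrum: a cyclic mean-zero vector with an a.e. positive spectral
density yields a mean-zero function whose translates form an orthonormal basis of the mean-zero
space.
-/

open MeasureTheory AddCircle Filter Topology
open scoped InnerProductSpace ComplexConjugate ENNReal

namespace P130Simple

open P130Indep

variable {X : Type*} [MeasurableSpace X] {μ : Measure X} {T : X ≃ᵐ X}

lemma exists_isometry_of_gram {H : Type*} [NormedAddCommGroup H] [InnerProductSpace ℂ H]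
    [CompleteSpace H] {K : Type*} [NormedAddCommGroup K] [InnerProductSpace ℂ K] [CompleteSpace K]
    {ι : Type*} (b : ι → K) (a : ι → H) (hb : (Submodule.span ℂ (Set.range b)).topologicalClosure = ⊤)
    (hgram : ∀ i j, ⟪a i, a j⟫_ℂ = ⟪b i, b j⟫_ℂ) :
    ∃ V : K →ₗᵢ[ℂ] H, ∀ i, V (b i) = a i := by
  let e : (ι →₀ ℂ) →ₗ[ℂ] K := Finsupp.linearCombination ℂ b
  let f : (ι →₀ ℂ) →ₗ[ℂ] H := Finsupp.linearCombination ℂ a
  have hd : DenseRange e := by
    have := Submodule.dense_iff_topologicalClosure_eq_top.2 hb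
    rwa [← Finsupp.range_linearCombination] at this
  have hin : ∀ x y, ⟪f x, f y⟫_ℂ = ⟪e x, e y⟫_ℂ := by
    intro x y
    simp only [f, e, Finsupp.linearCombination_apply, Finsupp.sum, sum_inner, inner_sum,
      inner_smul_left, inner_smul_right, hgram]
  have hn : ∀ x, ‖f x‖ = ‖e x‖ := by
    intro x
    rw [@norm_eq_sqrt_re_inner ℂ, @norm_eq_sqrt_re_inner ℂ, hin]
  have hb' : ∃ C, ∀ x, ‖f x‖ ≤ C * ‖e x‖ := ⟨1, fun x => by rw [one_mul, hn]⟩
  let L : K →L[ℂ] H := f.extendOfNorm e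
  have hL : ∀ x, L (e x) = f x := LinearMap.extendOfNorm_eq hd hb'
  have hnorm : ∀ x, ‖L x‖ = ‖x‖ := by
    have h : (fun x => ‖L x‖) = fun x => ‖x‖ :=
      hd.equalizer (L.continuous.norm) continuous_norm (funext fun x => by
        change ‖L (e x)‖ = ‖e x‖
        rw [hL, hn])
    exact congrFun h
  refine ⟨⟨L.toLinearMap, hnorm⟩, fun i => ?_⟩
  change L (b i) = a i
  simpa [e, f] using hL (Finsupp.single i 1)

/-- Cyclic vector with positive density ⟹ orthonormal translate basis. -/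
theorem exists_orthonormal_orbit [IsProbabilityMeasure μ] (hT : MeasurePreserving T μ μ)
    (f : X → ℂ) (hf : MemLp f 2 μ) (hf0 : ∫ x, f x ∂μ = 0)
    (ρ : Circ → ℝ) (hρ : Integrable ρ cm) (hpos : ∀ᵐ t ∂cm, 0 < ρ t)
    (hcorr : ∀ m n : ℤ, ∫ x, conj (f (tp T m x)) * f (tp T n x) ∂μ
      = ∫ t, fourier (n - m) t * (ρ t : ℂ) ∂cm)
    (hcyc : ∀ g : X → ℂ, MemLp g 2 μ → ∫ x, g x ∂μ = 0 →
      (∀ n : ℤ, ∫ x, conj (f (tp T n x)) * g x ∂μ = 0) → g =ᵐ[μ] 0) :
    ∃ g : X → ℂ, MemLp g 2 μ ∧ ∫ x, g x ∂μ = 0 ∧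
      (∀ m n : ℤ, ∫ x, conj (g (tp T m x)) * g (tp T n x) ∂μ = if m = n then 1 else 0) ∧
      ∀ h : X → ℂ, MemLp h 2 μ → ∫ x, h x ∂μ = 0 →
        (∀ n : ℤ, ∫ x, conj (g (tp T n x)) * h x ∂μ = 0) → h =ᵐ[μ] 0 := by
  classical
  have hfn : ∀ n, MemLp (fun x => f (tp T n x)) 2 μ :=
    fun n => hf.comp_measurePreserving (tp_mp hT n)
  set a : ℤ → Lp ℂ 2 μ := fun n => (hfn n).toLp _
  set r : Circ → ℂ := fun t => ((Real.sqrt (ρ t) : ℝ) : ℂ)
  have hrm : AEStronglyMeasurable r cm :=
    (Complex.continuous_ofReal.comp Real.continuous_sqrt).comp_aestronglyMeasurable hρ.1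
  have hbn : ∀ n : ℤ, MemLp (fun t => fourier n t * r t) 2 cm := by
    intro n
    refine (memLp_two_iff_integrable_sq_norm
      ((fourier n).continuous.aestronglyMeasurable.mul hrm)).2 (hρ.congr ?_)
    filter_upwards [hpos] with t ht
    rw [Pi.mul_apply, norm_mul, fourier_apply, Circle.norm_coe, one_mul]
    simp [r, Real.sq_sqrt ht.le]
  set b : ℤ → Lp ℂ 2 cm := fun n => (hbn n).toLp _
  have hgram : ∀ m n, ⟪a m, a n⟫_ℂ = ⟪b m, b n⟫_ℂ := by
    intro m n
    rw [inner_toLp, inner_toLp, hcorr]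
    refine integral_congr_ae ?_
    filter_upwards [hpos] with t ht
    have e : (r t) * (r t) = (ρ t : ℂ) := by
      simp only [r, ← Complex.ofReal_mul, Real.mul_self_sqrt ht.le]
    rw [sub_eq_neg_add, fourier_add, fourier_neg, map_mul, ← e]
    simp only [r, Complex.conj_ofReal]
    ring
  have hspan : (Submodule.span ℂ (Set.range b)).topologicalClosure = ⊤ := by
    rw [Submodule.topologicalClosure_eq_top_iff, Submodule.eq_bot_iff]
    intro x hx
    have hx' : ∀ n, ⟪b n, x⟫_ℂ = 0 := fun n =>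
      (Submodule.mem_orthogonal _ x).1 hx _ (Submodule.subset_span ⟨n, rfl⟩)
    have hint : Integrable (fun t => r t * x t) cm := by
      have := L2.integrable_inner (𝕜 := ℂ) (b 0) x
      refine this.congr ?_
      filter_upwards [(hbn 0).coeFn_toLp] with t ht
      rw [RCLike.inner_apply', ht]
      simp [r]
    have h0 : (fun t => r t * x t) =ᵐ[cm] 0 := by
      refine ae_eq_zero_of_fourier hint fun n => ?_
      rw [← hx' (-n), L2.inner_def]
      refine integral_congr_ae ?_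
      filter_upwards [(hbn (-n)).coeFn_toLp] with t ht
      rw [RCLike.inner_apply', ht, map_mul, fourier_neg, Complex.conj_conj]
      simp only [r, Complex.conj_ofReal]
      ring
    apply Lp.ext
    filter_upwards [h0, hpos, Lp.coeFn_zero ℂ 2 cm] with t h hp hz
    rw [hz]
    rcases mul_eq_zero.1 h with h1 | h1
    · exact absurd h1 (by simpa [r] using (Real.sqrt_pos.2 hp).ne')
    · exact h1
  obtain ⟨V, hV⟩ := exists_isometry_of_gram b a hspan hgram
  let one : Lp ℂ 2 μ := (memLp_const (1 : ℂ)).toLp _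
  have hone : ∀ v : Lp ℂ 2 μ, ⟪one, v⟫_ℂ = ∫ x, v x ∂μ := by
    intro v
    rw [L2.inner_def]
    refine integral_congr_ae ?_
    filter_upwards [(memLp_const (μ := μ) (p := 2) (1 : ℂ)).coeFn_toLp] with x hx
    rw [RCLike.inner_apply', hx]; simp
  have hV0 : ∀ y, ∫ x, V y x ∂μ = 0 := by
    intro y
    rw [← hone]
    have h1 : ContinuousLinearMap.adjoint V.toContinuousLinearMap one = 0 := by
      have hd := Submodule.dense_iff_topologicalClosure_eq_top.2 hspan
      refine hd.eq_zero_of_inner_right ℂ fun v hv => ?_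
      rw [ContinuousLinearMap.adjoint_inner_right]
      induction hv using Submodule.span_induction with
      | mem v hv =>
        obtain ⟨n, rfl⟩ := hv
        change ⟪V (b n), one⟫_ℂ = 0
        rw [hV, ← inner_conj_symm, hone, integral_congr_ae (hfn n).coeFn_toLp,
          integral_tp hT n f hf.1, hf0]
        simp
      | zero => simp
      | add u v _ _ hu hv => rw [map_add, inner_add_left, hu, hv, add_zero]
      | smul c u _ hu => rw [map_smul, inner_smul_left, hu, mul_zero]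
    change ⟪one, V.toContinuousLinearMap y⟫_ℂ = 0
    rw [← ContinuousLinearMap.adjoint_inner_left, h1, inner_zero_left]
  set e : ℤ → Lp ℂ 2 cm := fun n => fourierLp 2 n
  have he : Orthonormal ℂ e := orthonormal_fourier
  set g : X → ℂ := ⇑(V (e 0))
  have hg : MemLp g 2 μ := Lp.memLp _
  have hgn : ∀ n, MemLp (fun x => g (tp T n x)) 2 μ :=
    fun n => hg.comp_measurePreserving (tp_mp hT n)
  have hkey : ∀ n, (hgn n).toLp _ = V (e n) := by
    intro n
    set d := (hgn n).toLp _ - V (e n)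
    have hd0 : ∫ x, d x ∂μ = 0 := by
      rw [← hone, inner_sub_right, hone, hone, hV0,
        integral_congr_ae (hgn n).coeFn_toLp, integral_tp hT n g hg.1, hV0, sub_zero]
    have hd : ∀ k : ℤ, ∫ x, conj (f (tp T k x)) * d x ∂μ = 0 := by
      intro k
      have h := inner_toLp (hfn k) (Lp.memLp d)
      rw [Lp.toLp_coeFn] at h
      rw [← h]
      change ⟪a k, (hgn n).toLp _ - V (e n)⟫_ℂ = 0
      rw [inner_sub_right, sub_eq_zero, inner_toLp]
      have h2 := integral_tp hT n (fun x => conj (f (tp T (k - n) x)) * g x)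
        ((Complex.continuous_conj.comp_aestronglyMeasurable (hfn (k - n)).1).mul hg.1)
      simp only [← tp_add, sub_add_cancel] at h2
      rw [h2]
      have h3 : ∫ x, conj (f (tp T (k - n) x)) * g x ∂μ = ⟪a (k - n), V (e 0)⟫_ℂ := by
        rw [← inner_toLp (hfn (k - n)) hg, Lp.toLp_coeFn]
      rw [h3, ← hV, ← hV, LinearIsometry.inner_map_map, LinearIsometry.inner_map_map,
        L2.inner_def, L2.inner_def]
      refine integral_congr_ae ?_
      filter_upwards [(hbn (k - n)).coeFn_toLp, (hbn k).coeFn_toLp,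
        coeFn_fourierLp (T := (1 : ℝ)) 2 n, coeFn_fourierLp (T := (1 : ℝ)) 2 0] with t h1 h2 h3 h4
      rw [RCLike.inner_apply', RCLike.inner_apply', h1, h2, h3, h4, sub_eq_add_neg, fourier_add,
        fourier_neg, map_mul, map_mul, map_mul, Complex.conj_conj, fourier_zero, mul_one]
      ring
    have : d = 0 := by
      apply Lp.ext
      filter_upwards [hcyc _ (Lp.memLp d) hd0 hd, Lp.coeFn_zero ℂ 2 μ] with x hx h0
      rw [hx, h0]
    exact sub_eq_zero.1 this
  refine ⟨g, hg, hV0 _, fun m n => ?_, fun h hh hh0 horth => ?_⟩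
  · rw [← inner_toLp (hgn m) (hgn n), hkey, hkey, LinearIsometry.inner_map_map]
    exact orthonormal_iff_ite.1 he m n
  · set h' := hh.toLp h
    have hA : ContinuousLinearMap.adjoint V.toContinuousLinearMap h' = 0 := by
      apply fourierBasis.repr.injective
      ext k
      rw [HilbertBasis.repr_apply_apply, coe_fourierBasis, map_zero,
        ContinuousLinearMap.adjoint_inner_right]
      change ⟪V (e k), h'⟫_ℂ = (0 : ℂ)
      rw [← hkey, inner_toLp]
      exact horth k
    refine hcyc h hh hh0 fun n => ?_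
    rw [← inner_toLp (hfn n) hh]
    change ⟪a n, h'⟫_ℂ = 0
    rw [← hV]
    change ⟪V.toContinuousLinearMap (b n), h'⟫_ℂ = 0
    rw [← ContinuousLinearMap.adjoint_inner_right, hA, inner_zero_right]

/-- Same, with correlations given from time zero only. -/
theorem exists_orthonormal_orbit' [IsProbabilityMeasure μ] (hT : MeasurePreserving T μ μ)
    (f : X → ℂ) (hf : MemLp f 2 μ) (hf0 : ∫ x, f x ∂μ = 0)
    (ρ : Circ → ℝ) (hρ : Integrable ρ cm) (hpos : ∀ᵐ t ∂cm, 0 < ρ t)
    (hcorr : ∀ n : ℤ, ∫ x, conj (f x) * f (tp T n x) ∂μ = ∫ t, fourier n t * (ρ t : ℂ) ∂cm)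
    (hcyc : ∀ g : X → ℂ, MemLp g 2 μ → ∫ x, g x ∂μ = 0 →
      (∀ n : ℤ, ∫ x, conj (f (tp T n x)) * g x ∂μ = 0) → g =ᵐ[μ] 0) :
    ∃ g : X → ℂ, MemLp g 2 μ ∧ ∫ x, g x ∂μ = 0 ∧
      (∀ m n : ℤ, ∫ x, conj (g (tp T m x)) * g (tp T n x) ∂μ = if m = n then 1 else 0) ∧
      ∀ h : X → ℂ, MemLp h 2 μ → ∫ x, h x ∂μ = 0 →
        (∀ n : ℤ, ∫ x, conj (g (tp T n x)) * h x ∂μ = 0) → h =ᵐ[μ] 0 := by
  refine exists_orthonormal_orbit hT f hf hf0 ρ hρ hpos (fun m n => ?_) hcyc
  have hfn : MemLp (fun x => f (tp T (n - m) x)) 2 μ := hf.comp_measurePreserving (tp_mp hT _)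
  have h := integral_tp hT m (fun x => conj (f x) * f (tp T (n - m) x))
    ((Complex.continuous_conj.comp_aestronglyMeasurable hf.1).mul hfn.1)
  simp only [← tp_add, sub_add_cancel] at h
  rw [h, hcorr]

end P130Simple
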