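import Mathlib

/-! Spectral map for a transformation with simple Lebesgue spectrum. -/

open MeasureTheory AddCircle Filter Topology
open scoped InnerProductSpace ComplexConjugate ENNReal

namespace P130Indep

abbrev Circ := AddCircle (1 : ℝ)

noncomputable abbrev cm : Measure Circ := haarAddCircle

variable {X : Type*} [MeasurableSpace X] {μ : Measure X} {T : X ≃ᵐ X}

/-- `T^n`. -/
abbrev tp (T : X ≃ᵐ X) (n : ℤ) : X → X := ⇑((T.toEquiv : Equiv.Perm X) ^ n)

lemma tp_add (m n : ℤ) (x : X) : tp T (m + n) x = tp T m (tp T n x) := by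
  simp [tp, zpow_add, Equiv.Perm.mul_apply]

lemma tp_mp (hT : MeasurePreserving T μ μ) (n : ℤ) : MeasurePreserving (tp T n) μ μ := by
  have hs : MeasurePreserving T.symm μ μ := hT.symm T
  induction n using Int.induction_on with
  | zero => simpa [tp] using MeasurePreserving.id μ
  | succ i ih =>
    have : tp T (i + 1) = tp T i ∘ T := funext fun x => by
      rw [tp_add]; simp [tp]
    rw [this]; exact ih.comp hT
  | pred i ih =>
    have : tp T (-i - 1) = tp T (-i) ∘ T.symm := funext fun x => by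
      rw [sub_eq_add_neg, tp_add]; simp [tp]
    rw [this]; exact ih.comp hs

lemma integral_tp (hT : MeasurePreserving T μ μ) (n : ℤ) (φ : X → ℂ)
    (hφ : AEStronglyMeasurable φ μ) : ∫ x, φ (tp T n x) ∂μ = ∫ x, φ x ∂μ := by
  have h := tp_mp hT n
  conv_rhs => rw [← h.map_eq]
  exact (integral_map h.measurable.aemeasurable (by rwa [h.map_eq])).symm

lemma inner_toLp {α : Type*} [MeasurableSpace α] {ν : Measure α} {a b : α → ℂ}
    (ha : MemLp a 2 ν) (hb : MemLp b 2 ν) :
    ⟪ha.toLp a, hb.toLp b⟫_ℂ = ∫ x, conj (a x) * b x ∂ν := by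
  rw [L2.inner_def]
  refine integral_congr_ae ?_
  filter_upwards [ha.coeFn_toLp, hb.coeFn_toLp] with x hx hy
  rw [RCLike.inner_apply', hx, hy]

lemma inner_fourierLp (k : ℤ) (b : Lp ℂ 2 cm) :
    ⟪fourierLp 2 k, b⟫_ℂ = ∫ t, conj (fourier k t) * b t ∂cm := by
  rw [L2.inner_def]
  refine integral_congr_ae ?_
  filter_upwards [coeFn_fourierLp (T := (1 : ℝ)) 2 k] with x hx
  rw [RCLike.inner_apply', hx]

theorem exists_spectralMap [IsProbabilityMeasure μ] (hT : MeasurePreserving T μ μ)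
    (f : X → ℂ) (hf : MemLp f 2 μ) (hf0 : ∫ x, f x ∂μ = 0)
    (horth : ∀ m n : ℤ, ∫ x, conj (f (tp T m x)) * f (tp T n x) ∂μ = if m = n then 1 else 0)
    (hcomp : ∀ g : X → ℂ, MemLp g 2 μ → ∫ x, g x ∂μ = 0 →
      (∀ n : ℤ, ∫ x, conj (f (tp T n x)) * g x ∂μ = 0) → g =ᵐ[μ] 0) :
    ∃ F : (X → ℂ) → (Circ → ℂ),
      (∀ g : X → ℂ, MemLp g 2 μ → MemLp (F g) 2 cm) ∧
      ∀ g g' : X → ℂ, MemLp g 2 μ → MemLp g' 2 μ → ∫ x, g x ∂μ = 0 → ∫ x, g' x ∂μ = 0 →
        ∀ n : ℤ, ∫ x, conj (g (tp T n x)) * g' x ∂μ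
          = ∫ t, conj (fourier n t) * (conj (F g t) * F g' t) ∂cm := by
  classical
  have hfn : ∀ n, MemLp (fun x => f (tp T n x)) 2 μ :=
    fun n => hf.comp_measurePreserving (tp_mp hT n)
  set e : ℤ → Lp ℂ 2 μ := fun n => (hfn n).toLp _
  have he : Orthonormal ℂ e := by
    rw [orthonormal_iff_ite]
    intro i j
    rw [inner_toLp]; exact horth i j
  set J : Lp ℂ 2 cm →ₗᵢ[ℂ] Lp ℂ 2 μ :=
    he.orthogonalFamily.linearIsometry.comp fourierBasis.repr.toLinearIsometry
  have hJk : ∀ k, J (fourierLp 2 k) = e k := by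
    intro k
    have h1 : fourierBasis.repr (fourierLp (T := (1 : ℝ)) 2 k) = lp.single 2 k (1 : ℂ) := by
      rw [← coe_fourierBasis, HilbertBasis.repr_self]
    change he.orthogonalFamily.linearIsometry (fourierBasis.repr (fourierLp 2 k)) = e k
    rw [h1, OrthogonalFamily.linearIsometry_apply_single]
    simp
  set A : Lp ℂ 2 μ →L[ℂ] Lp ℂ 2 cm := ContinuousLinearMap.adjoint J.toContinuousLinearMap
  have hA : ∀ (b : Lp ℂ 2 μ) (a : Lp ℂ 2 cm), ⟪a, A b⟫_ℂ = ⟪J a, b⟫_ℂ := fun b a =>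
    ContinuousLinearMap.adjoint_inner_right J.toContinuousLinearMap a b
  have hA' : ∀ (b : Lp ℂ 2 μ) k, ⟪fourierLp 2 k, A b⟫_ℂ = ⟪e k, b⟫_ℂ := fun b k => by
    rw [hA, hJk]
  have hext : ∀ a b : Lp ℂ 2 cm,
      (∀ k, ⟪fourierLp 2 k, a⟫_ℂ = ⟪fourierLp 2 k, b⟫_ℂ) → a = b := by
    intro a b h
    apply fourierBasis.repr.injective
    ext k
    rw [HilbertBasis.repr_apply_apply, HilbertBasis.repr_apply_apply, coe_fourierBasis]
    exact h k
  let one : Lp ℂ 2 μ := (memLp_const (1 : ℂ)).toLp _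
  have hone : ∀ (b : X → ℂ) (hb : MemLp b 2 μ), ⟪one, hb.toLp b⟫_ℂ = ∫ x, b x ∂μ := by
    intro b hb
    rw [inner_toLp]; simp
  have hAone : A one = 0 := by
    refine hext _ _ fun k => ?_
    have h2 : ⟪one, e k⟫_ℂ = 0 := by
      rw [hone, integral_tp hT k f hf.1, hf0]
    rw [hA', ← inner_conj_symm, h2]; simp
  have hJA : ∀ (g : X → ℂ) (hg : MemLp g 2 μ), ∫ x, g x ∂μ = 0 →
      J (A (hg.toLp g)) = hg.toLp g := by
    intro g hg hg0
    set r := hg.toLp g - J (A (hg.toLp g))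
    have hr1 : ∫ x, r x ∂μ = 0 := by
      have h := hone _ (Lp.memLp r)
      rw [Lp.toLp_coeFn] at h
      rw [← h]
      have : ⟪one, J (A (hg.toLp g))⟫_ℂ = 0 := by
        rw [← inner_conj_symm, ← hA, hAone]; simp
      simp only [r, inner_sub_right, this, hone, hg0, sub_zero]
    have hr2 : ∀ n : ℤ, ∫ x, conj (f (tp T n x)) * r x ∂μ = 0 := by
      intro n
      have h := inner_toLp (hfn n) (Lp.memLp r)
      rw [Lp.toLp_coeFn] at h
      rw [← h]
      change ⟪e n, r⟫_ℂ = 0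
      have : ⟪e n, J (A (hg.toLp g))⟫_ℂ = ⟪e n, hg.toLp g⟫_ℂ := by
        rw [← hJk, LinearIsometry.inner_map_map, hA]
      simp [r, inner_sub_right, this]
    have hr3 : r = 0 := by
      apply Lp.ext
      filter_upwards [hcomp _ (Lp.memLp r) hr1 hr2, Lp.coeFn_zero ℂ 2 μ] with x hx h0
      rw [hx, h0]
    exact (sub_eq_zero.1 hr3).symm
  refine ⟨fun g => if hg : MemLp g 2 μ then ⇑(A (hg.toLp g)) else 0, fun g hg => ?_, ?_⟩
  · simp only [hg, dite_true]; exact Lp.memLp _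
  intro g g' hg hg' hg0 hg0' n
  simp only [hg, hg', dite_true]
  have hgn : MemLp (fun x => g (tp T n x)) 2 μ := hg.comp_measurePreserving (tp_mp hT n)
  have hgn0 : ∫ x, g (tp T n x) ∂μ = 0 := by rw [integral_tp hT n g hg.1, hg0]
  set a := A (hg.toLp g)
  have hh : MemLp (fun t => fourier n t * a t) 2 cm := by
    refine MemLp.of_le (Lp.memLp a)
      (((fourier n).continuous.aestronglyMeasurable).mul (Lp.aestronglyMeasurable a)) ?_
    exact Eventually.of_forall fun t => by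
      rw [norm_mul, fourier_apply, Circle.norm_coe, one_mul]
  have hshift : A (hgn.toLp _) = hh.toLp _ := by
    refine hext _ _ fun k => ?_
    rw [hA', inner_toLp, inner_fourierLp]
    have e1 : ∫ x, conj (f (tp T k x)) * g (tp T n x) ∂μ
        = ⟪fourierLp 2 (k - n), a⟫_ℂ := by
      have h := integral_tp hT n (fun x => conj (f (tp T (k - n) x)) * g x)
        ((Complex.continuous_conj.comp_aestronglyMeasurable (hfn (k - n)).1).mul hg.1)
      rw [hA', inner_toLp, ← h]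
      simp only [← tp_add, sub_add_cancel]
    rw [e1, inner_fourierLp]
    refine integral_congr_ae ?_
    filter_upwards [hh.coeFn_toLp] with t ht
    rw [ht, sub_eq_add_neg, fourier_add, fourier_neg, map_mul, Complex.conj_conj]
    ring
  calc ∫ x, conj (g (tp T n x)) * g' x ∂μ = ⟪hgn.toLp _, hg'.toLp g'⟫_ℂ :=
        (inner_toLp hgn hg').symm
    _ = ⟪hh.toLp _, A (hg'.toLp g')⟫_ℂ := by
        rw [← hshift, ← LinearIsometry.inner_map_map J, hJA _ hgn hgn0, hJA _ hg' hg0']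
    _ = _ := by
        rw [L2.inner_def]
        refine integral_congr_ae ?_
        filter_upwards [hh.coeFn_toLp] with t ht
        rw [RCLike.inner_apply', ht, map_mul]
        ring

end P130Indep
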